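import Vale.Agent.Lib.P361.Defs
import Vale.Agent.Lib.P361.Defs2
import Vale.Agent.Lib.P361.Field

open Filter Topology MeasureTheory

namespace Vale.Agent.Results.P361.AllFields

open Vale.Agent.P361

/-- For every spin `S = n / 2`, every temperature and every field `h ≥ 0`, the magnetization
`m = ∂⁺p(h)` satisfies the self-consistent ideal spin-wave bound; and the sharp lower half of
Bloch's law holds for the spontaneous magnetization. -/
theorem result (n : ℕ) (hn : 1 ≤ n) :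
    (∀ β : ℝ, 0 < β → ∀ h : ℝ,
      Tendsto (fun N : ℕ => finitePressure n β h (box N)) atTop (𝓝 (pressure n β h)) ∧
      HasDerivWithinAt (fun h' => pressure n β h')
        (derivWithin (fun h' => pressure n β h') (Set.Ioi h) h) (Set.Ioi h) h) ∧
    (∀ β : ℝ, 0 < β → ∀ h : ℝ, 0 ≤ h → ∀ m : ℝ,
      m = derivWithin (fun h' => pressure n β h') (Set.Ioi h) h → 0 < m →
      IntegrableOn
        (fun k => 1 / (Real.exp (β * (h + (n : ℝ) / 2 / m * disp n k)) - 1)) zone ∧
      m / ((n : ℝ) / 2) * ((1 / (2 * Real.pi) ^ 3) *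
        ∫ k in zone, 1 / (Real.exp (β * (h + (n : ℝ) / 2 / m * disp n k)) - 1)) ≤
          (n : ℝ) / 2 - m) ∧
    (∀ c : ℝ, c < (riemannZeta (3 / 2)).re /
        (8 * Real.pi ^ (3 / 2 : ℝ) * ((n : ℝ) / 2) ^ (3 / 2 : ℝ)) →
      ∀ᶠ β : ℝ in atTop,
        c < β ^ (3 / 2 : ℝ) * ((n : ℝ) / 2 - spontaneousMagnetization n β)) :=
  ⟨fun _ hβ h => ⟨tendsto_pressure n hβ h, hasDeriv_pressure' n hβ h⟩,
    fun _ hβ _ hh _ hm hpos => all_temp' n hn hβ hh hm hpos,
    fun _ hc => bloch_lower n hn hc⟩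

end Vale.Agent.Results.P361.AllFields
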