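import Vale.Agent.Lib.P361.Defs
import Vale.Agent.Lib.P361.Final

open Filter Topology

namespace Vale.Agent.Results.P361.BlochLower

open Vale.Agent.P361

/-- The sharp lower half of Bloch's law, for every spin `S = n / 2`. The first two items record that
the pressure is a genuine limit and the spontaneous magnetization a genuine right derivative. -/
theorem result (n : ℕ) (hn : 1 ≤ n) :
    (∀ β : ℝ, 0 < β → ∀ h : ℝ,
      Tendsto (fun N : ℕ => finitePressure n β h (box N)) atTop (𝓝 (pressure n β h))) ∧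
    (∀ β : ℝ, 0 < β →
      HasDerivWithinAt (fun h => pressure n β h) (spontaneousMagnetization n β) (Set.Ioi 0) 0) ∧
    (∀ c : ℝ, c < (riemannZeta (3 / 2)).re /
        (8 * Real.pi ^ (3 / 2 : ℝ) * ((n : ℝ) / 2) ^ (3 / 2 : ℝ)) →
      ∀ᶠ β : ℝ in atTop,
        c < β ^ (3 / 2 : ℝ) * ((n : ℝ) / 2 - spontaneousMagnetization n β)) :=
  ⟨fun _ hβ h => tendsto_pressure n hβ h, fun _ hβ => hasDeriv_pressure n hβ,
    fun _ hc => bloch_lower n hn hc⟩

end Vale.Agent.Results.P361.BlochLower
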