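import Vale.Agent.Lib.P361.Defs
import Vale.Agent.Lib.P361.Defs2
import Vale.Agent.Lib.P361.Field
import Vale.Agent.Lib.P361.Site

/-!
Hand-in for P361 (Bloch's law for the three-dimensional quantum Heisenberg ferromagnet).

The spin matrices are given by their matrix elements, the Hamiltonian by the sum over ordered pairs of
sites at `ℓ¹` distance one (divided by two), the partition function by the power series of the trace of
the exponential, the pressure and the magnetization by existence statements.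
-/

namespace Vale.Agent.Results.P361.MagnetizationUpperBound

open Matrix Filter Topology MeasureTheory

/-- The matrices `S¹, S², S³` of spin `n / 2` in the basis of eigenvectors of `S³` with the
eigenvalues `n / 2, n / 2 - 1, …, - n / 2`. -/
noncomputable def S (n : ℕ) : Fin 3 → Matrix (Fin (n + 1)) (Fin (n + 1)) ℂ :=
  let r (j : ℕ) : ℂ := (Real.sqrt (j * ((n : ℝ) + 1 - j)) / 2 : ℝ)
  ![fun i j => if (i : ℕ) + 1 = j then r j else if (j : ℕ) + 1 = i then r i else 0,
    fun i j => if (i : ℕ) + 1 = j then -Complex.I * r j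
      else if (j : ℕ) + 1 = i then Complex.I * r i else 0,
    fun i j => if i = j then (n : ℂ) / 2 - (i : ℕ) else 0]

/-- `S^a_x` on the space with basis the configurations `Λ → {0, …, n}`. -/
noncomputable def site (n : ℕ) {Λ : Finset (Fin 3 → ℤ)} (a : Fin 3) (x : Λ) :
    Matrix (Λ → Fin (n + 1)) (Λ → Fin (n + 1)) ℂ :=
  fun σ τ => S n a (σ x) (τ x) * ∏ y ∈ Finset.univ.erase x, if σ y = τ y then 1 else 0

/-- `H - h M` in the finite set `Λ`, free boundary conditions. -/
noncomputable def energy (n : ℕ) (Λ : Finset (Fin 3 → ℤ)) (h : ℝ) :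
    Matrix (Λ → Fin (n + 1)) (Λ → Fin (n + 1)) ℂ :=
  -((1 / 2 : ℂ) • ∑ x : Λ, ∑ y : Λ, if ∑ j, |(x : Fin 3 → ℤ) j - (y : Fin 3 → ℤ) j| = 1 then
    ∑ a, site n a x * site n a y else 0) - (h : ℂ) • ∑ x : Λ, site n 2 x

/-- The partition function `Tr exp (- β (H - h M)) = ∑_k (-β)^k / k! Tr (H - h M)^k`. -/
noncomputable def partition (n : ℕ) (β h : ℝ) (Λ : Finset (Fin 3 → ℤ)) : ℝ :=
  ∑' k : ℕ, (-β) ^ k / (k.factorial : ℝ) * (trace (energy n Λ h ^ k)).re

theorem S_eq (n : ℕ) : Vale.Agent.P361.spin n = S n := by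
  funext a
  ext i j
  have hI : ∀ x : ℝ, star (x : ℂ) = (x : ℂ) := fun x => Complex.conj_ofReal x
  have hp : ∀ i j : Fin (n + 1), Vale.Agent.P361.spinPlus n i j = if (i : ℕ) + 1 = (j : ℕ) then
    ((Real.sqrt ((j : ℕ) * ((n : ℝ) + 1 - (j : ℕ))) : ℝ) : ℂ) else 0 := fun _ _ => rfl
  have hr : ∀ x : ℝ, ((x / 2 : ℝ) : ℂ) = (x : ℂ) / 2 := fun x => by push_cast; rfl
  fin_cases a
  · change (1 / 2 : ℂ) * (P361.spinPlus n i j + star (P361.spinPlus n j i)) =
      if (i : ℕ) + 1 = j then ((Real.sqrt ((j : ℕ) * ((n : ℝ) + 1 - (j : ℕ))) / 2 : ℝ) : ℂ)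
      else if (j : ℕ) + 1 = i then
        ((Real.sqrt ((i : ℕ) * ((n : ℝ) + 1 - (i : ℕ))) / 2 : ℝ) : ℂ) else 0
    rw [hp, hp]
    by_cases h1 : (i : ℕ) + 1 = j
    · rw [if_pos h1, if_pos h1, if_neg (by omega), star_zero, hr]
      ring
    · by_cases h2 : (j : ℕ) + 1 = i
      · rw [if_neg h1, if_neg h1, if_pos h2, if_pos h2, hI, hr]
        ring
      · rw [if_neg h1, if_neg h1, if_neg h2, if_neg h2, star_zero]
        ring
  · change (-Complex.I / 2 : ℂ) * (P361.spinPlus n i j - star (P361.spinPlus n j i)) =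
      if (i : ℕ) + 1 = j then
        -Complex.I * ((Real.sqrt ((j : ℕ) * ((n : ℝ) + 1 - (j : ℕ))) / 2 : ℝ) : ℂ)
      else if (j : ℕ) + 1 = i then
        Complex.I * ((Real.sqrt ((i : ℕ) * ((n : ℝ) + 1 - (i : ℕ))) / 2 : ℝ) : ℂ) else 0
    rw [hp, hp]
    by_cases h1 : (i : ℕ) + 1 = j
    · rw [if_pos h1, if_pos h1, if_neg (by omega), star_zero, hr]
      ring
    · by_cases h2 : (j : ℕ) + 1 = i
      · rw [if_neg h1, if_neg h1, if_pos h2, if_pos h2, hI, hr]
        ring
      · rw [if_neg h1, if_neg h1, if_neg h2, if_neg h2, star_zero]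
        ring
  · change Matrix.diagonal (fun j : Fin (n + 1) => (n : ℂ) / 2 - ((j : ℕ) : ℂ)) i j =
      if i = j then (n : ℂ) / 2 - ((i : ℕ) : ℂ) else 0
    rw [Matrix.diagonal_apply]

theorem site_eq (n : ℕ) {Λ : Finset (Fin 3 → ℤ)} (a : Fin 3) (x : Λ) :
    Vale.Agent.P361.siteOp x (Vale.Agent.P361.spin n a) = site n a x := by
  rw [S_eq]
  ext σ τ
  simp only [P361.siteOp, site, Matrix.of_apply]
  by_cases h : ∀ y, y ≠ x → σ y = τ y
  · rw [if_pos h, Finset.prod_eq_one, mul_one]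
    intro y hy
    rw [if_pos (h y (Finset.ne_of_mem_erase hy))]
  · rw [if_neg h]
    push Not at h
    obtain ⟨y, hy, hne⟩ := h
    rw [Finset.prod_eq_zero (i := y) (Finset.mem_erase.2 ⟨hy, Finset.mem_univ y⟩) (if_neg hne),
      mul_zero]

theorem adj_iff (x y : Fin 3 → ℤ) : ∑ j, |x j - y j| = 1 ↔
    (∃ j : Fin 3, y = x + Pi.single j 1) ∨ ∃ j : Fin 3, x = y + Pi.single j 1 := by
  constructor
  · intro h
    rw [Fin.sum_univ_three] at h
    have h0 := abs_nonneg (x 0 - y 0)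
    have h1 := abs_nonneg (x 1 - y 1)
    have h2 := abs_nonneg (x 2 - y 2)
    have key : ∀ a b : ℤ, |a - b| = 0 → a = b := fun a b h => sub_eq_zero.1 (abs_eq_zero.1 h)
    have key1 : ∀ a b : ℤ, |a - b| = 1 → b = a + 1 ∨ a = b + 1 := by
      intro a b h
      rcases (abs_eq (by norm_num)).1 h with h | h
      · right; omega
      · left; omega
    have hc : (|x 0 - y 0| = 1 ∧ |x 1 - y 1| = 0 ∧ |x 2 - y 2| = 0) ∨
        (|x 0 - y 0| = 0 ∧ |x 1 - y 1| = 1 ∧ |x 2 - y 2| = 0) ∨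
        (|x 0 - y 0| = 0 ∧ |x 1 - y 1| = 0 ∧ |x 2 - y 2| = 1) := by omega
    rcases hc with ⟨a, b, c⟩ | ⟨a, b, c⟩ | ⟨a, b, c⟩
    · rcases key1 _ _ a with e | e
      · left
        refine ⟨0, funext fun k => ?_⟩
        fin_cases k <;> simp [e, key _ _ b, key _ _ c]
      · right
        refine ⟨0, funext fun k => ?_⟩
        fin_cases k <;> simp [e, key _ _ b, key _ _ c]
    · rcases key1 _ _ b with e | e
      · left
        refine ⟨1, funext fun k => ?_⟩
        fin_cases k <;> simp [e, key _ _ a, key _ _ c]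
      · right
        refine ⟨1, funext fun k => ?_⟩
        fin_cases k <;> simp [e, key _ _ a, key _ _ c]
    · rcases key1 _ _ c with e | e
      · left
        refine ⟨2, funext fun k => ?_⟩
        fin_cases k <;> simp [e, key _ _ a, key _ _ b]
      · right
        refine ⟨2, funext fun k => ?_⟩
        fin_cases k <;> simp [e, key _ _ a, key _ _ b]
  · rintro (⟨j, rfl⟩ | ⟨j, rfl⟩)
    · rw [Finset.sum_eq_single j] <;> simp +contextual
    · rw [Finset.sum_eq_single j] <;> simp +contextual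

theorem energy_eq (n : ℕ) (Λ : Finset (Fin 3 → ℤ)) (h : ℝ) :
    Vale.Agent.P361.hamiltonian n Λ - (h : ℂ) • Vale.Agent.P361.totalSpinZ n Λ = energy n Λ h := by
  classical
  have hM : Vale.Agent.P361.totalSpinZ n Λ = ∑ x : Λ, site n 2 x :=
    Finset.sum_congr rfl fun x _ => site_eq n 2 x
  rw [energy, P361.hamiltonian, hM]
  congr 2
  set F : Λ × Λ → Matrix (Λ → Fin (n + 1)) (Λ → Fin (n + 1)) ℂ :=
    fun p => ∑ a, site n a p.1 * site n a p.2 with hF
  have hF1 : ∀ p ∈ Vale.Agent.P361.bonds Λ, (∑ a : Fin 3, P361.siteOp p.1 (P361.spin n a) *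
      P361.siteOp p.2 (P361.spin n a)) = F p := by
    intro p _
    exact Finset.sum_congr rfl fun a _ => by rw [site_eq, site_eq]
  rw [Finset.sum_congr rfl hF1]
  have hsw : ∀ p ∈ Vale.Agent.P361.bonds Λ, F p.swap = F p := by
    intro p hp
    have hne : p.2 ≠ p.1 := by
      intro e
      obtain ⟨j, hj⟩ := (Finset.mem_filter.1 hp).2
      rw [e] at hj
      have := congrFun hj j
      simp at this
    refine Finset.sum_congr rfl fun a _ => ?_
    rw [Prod.fst_swap, Prod.snd_swap, ← site_eq, ← site_eq]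
    exact P361.siteOp_comm hne _ _
  have hsum : (∑ x : Λ, ∑ y : Λ, if ∑ j, |(x : Fin 3 → ℤ) j - (y : Fin 3 → ℤ) j| = 1 then
      F (x, y) else 0) = ∑ p ∈ P361.bonds Λ, F p + ∑ p ∈ P361.bonds Λ, F p := by
    rw [← Finset.sum_product', Finset.univ_product_univ, ← Finset.sum_filter]
    have hU : (Finset.univ.filter fun p : Λ × Λ =>
        ∑ j, |(p.1 : Fin 3 → ℤ) j - (p.2 : Fin 3 → ℤ) j| = 1) =
        P361.bonds Λ ∪ (P361.bonds Λ).image Prod.swap := by
      ext p
      rw [Finset.mem_filter, Finset.mem_union, Finset.mem_image, adj_iff]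
      simp only [P361.bonds, Finset.mem_filter, Finset.mem_univ, true_and]
      constructor
      · rintro (h | h)
        · exact Or.inl h
        · exact Or.inr ⟨p.swap, h, Prod.swap_swap p⟩
      · rintro (h | ⟨q, h, rfl⟩)
        · exact Or.inl h
        · exact Or.inr h
    have hD : Disjoint (P361.bonds Λ) ((P361.bonds Λ).image Prod.swap) := by
      rw [Finset.disjoint_left]
      rintro p hp hq
      obtain ⟨q, hq2, rfl⟩ := Finset.mem_image.1 hq
      obtain ⟨j, hj⟩ := (Finset.mem_filter.1 hp).2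
      obtain ⟨k, hk⟩ := (Finset.mem_filter.1 hq2).2
      rw [Prod.fst_swap, Prod.snd_swap, hk] at hj
      have h1 := congrFun hj j
      have h2 : (0 : ℤ) ≤ (Pi.single k (1 : ℤ) : Fin 3 → ℤ) j := by
        rw [Pi.single_apply]
        split_ifs <;> norm_num
      simp only [Pi.add_apply, Pi.single_eq_same] at h1
      omega
    rw [hU, Finset.sum_union hD, Finset.sum_image (fun a _ b _ h => Prod.swap_injective h)]
    congr 1
    exact Finset.sum_congr rfl hsw
  rw [hsum, ← two_smul ℂ, smul_smul]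
  norm_num

theorem hasSum_trace {ι : Type} [Fintype ι] [DecidableEq ι] (A : Matrix ι ι ℂ) :
    HasSum (fun k : ℕ => ((k.factorial : ℂ)⁻¹) * trace (A ^ k)) (trace (NormedSpace.exp A)) := by
  let _ : NormedRing (Matrix ι ι ℂ) := Matrix.linftyOpNormedRing
  let _ : NormedAlgebra ℂ (Matrix ι ι ℂ) := Matrix.linftyOpNormedAlgebra
  have h1 := NormedSpace.exp_series_hasSum_exp' (𝕂 := ℂ) A
  have h2 := h1.map (Matrix.traceAddMonoidHom ι ℂ) (by
    change Continuous fun M : Matrix ι ι ℂ => trace M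
    exact Continuous.matrix_trace continuous_id)
  refine h2.congr_fun ?_
  intro k
  simp

theorem partition_eq (n : ℕ) (β h : ℝ) (Λ : Finset (Fin 3 → ℤ)) :
    (Matrix.trace (NormedSpace.exp ((-β : ℂ) • (Vale.Agent.P361.hamiltonian n Λ -
      (h : ℂ) • Vale.Agent.P361.totalSpinZ n Λ)))).re = partition n β h Λ := by
  rw [energy_eq]
  have h1 := (Complex.hasSum_re (hasSum_trace ((-β : ℂ) • energy n Λ h))).tsum_eq
  rw [partition, ← h1]
  refine tsum_congr fun k => ?_
  rw [smul_pow, trace_smul, smul_eq_mul, ← mul_assoc]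
  have h2 : ((k.factorial : ℂ)⁻¹ * (-β : ℂ) ^ k) = (((-β) ^ k / (k.factorial : ℝ) : ℝ) : ℂ) := by
    push_cast
    ring
  rw [h2, Complex.re_ofReal_mul]

theorem finitePressure_eq (n : ℕ) (β h : ℝ) (N : ℕ) :
    Vale.Agent.P361.finitePressure n β h (Vale.Agent.P361.box N) =
      Real.log (partition n β h (Finset.Icc (fun _ => -(N : ℤ)) (fun _ => (N : ℤ)))) /
        (β * (2 * N + 1) ^ 3) := by
  rw [P361.finitePressure, partition_eq, P361.card_box, P361.box]
  push_cast
  ring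

/-- **The magnetization of the three-dimensional quantum Heisenberg ferromagnet is at most the one
of Bloch's law.**  For every spin `S = n / 2` the pressure `p` (limit of the finite volume pressures)
and its right derivative `m` in the field exist; for all `β > 0`, `h ≥ 0` with `m β h > 0`,
`S - m ≥ (m / S) (2π)⁻³ ∫ dk / (exp (β (h + (S / m) ε_S(k))) - 1)`; and
`liminf_{β → ∞} β^{3/2} (S - m β 0) ≥ ζ(3/2) / (8 π^{3/2} S^{3/2})`. -/
theorem result (n : ℕ) (hn : 1 ≤ n) : ∃ p m : ℝ → ℝ → ℝ,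
    (∀ β : ℝ, 0 < β → ∀ h : ℝ,
      Tendsto (fun N : ℕ => Real.log
          (partition n β h (Finset.Icc (fun _ => -(N : ℤ)) (fun _ => (N : ℤ)))) /
        (β * (2 * N + 1) ^ 3)) atTop (𝓝 (p β h)) ∧
      HasDerivWithinAt (p β) (m β h) (Set.Ioi h) h) ∧
    (∀ ε : ℝ, 0 < ε → ∀ᶠ β : ℝ in atTop,
      (riemannZeta (3 / 2)).re / (8 * Real.pi ^ (3 / 2 : ℝ) * ((n : ℝ) / 2) ^ (3 / 2 : ℝ)) - ε ≤
        β ^ (3 / 2 : ℝ) * ((n : ℝ) / 2 - m β 0)) ∧
    (∀ β : ℝ, 0 < β → ∀ h : ℝ, 0 ≤ h → 0 < m β h →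
      let f := fun k : Fin 3 → ℝ => (Real.exp (β * (h + ((n : ℝ) / 2) / m β h *
        (n * ∑ j, (1 - Real.cos (k j))))) - 1)⁻¹
      IntegrableOn f (Set.Icc (fun _ => -Real.pi) (fun _ => Real.pi)) ∧
      m β h / ((n : ℝ) / 2) * ((2 * Real.pi) ^ 3)⁻¹ *
          (∫ k in Set.Icc (fun _ => -Real.pi) (fun _ => Real.pi), f k) ≤ (n : ℝ) / 2 - m β h) := by
  refine ⟨fun β h => Vale.Agent.P361.pressure n β h,
    fun β h => derivWithin (fun h' => Vale.Agent.P361.pressure n β h') (Set.Ioi h) h, ?_, ?_, ?_⟩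
  · intro β hβ h
    refine ⟨?_, Vale.Agent.P361.hasDeriv_pressure' n hβ h⟩
    refine (Vale.Agent.P361.tendsto_pressure n hβ h).congr fun N => ?_
    exact finitePressure_eq n β h N
  · intro ε hε
    have h1 := Vale.Agent.P361.bloch_lower n hn (c := (riemannZeta (3 / 2)).re /
      (8 * Real.pi ^ (3 / 2 : ℝ) * ((n : ℝ) / 2) ^ (3 / 2 : ℝ)) - ε) (sub_lt_self _ hε)
    filter_upwards [h1] with β h2
    exact h2.le
  · intro β hβ h hh hm
    obtain ⟨h1, h2⟩ := Vale.Agent.P361.all_temp' n hn hβ hh rfl hm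
    have hz : Vale.Agent.P361.zone =
        Set.Icc (fun _ : Fin 3 => -Real.pi) (fun _ : Fin 3 => Real.pi) :=
      Set.pi_univ_Icc _ _
    rw [hz] at h1 h2
    simp only [Vale.Agent.P361.disp, one_div] at h1 h2
    refine ⟨h1, ?_⟩
    rw [mul_assoc]
    exact h2

end Vale.Agent.Results.P361.MagnetizationUpperBound
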